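/-
Row 324, module R, file Rec/Coef (R3, part 2): the new coefficient functions.

`Q` from `rec_Q`.   Notation  Ã(t,y) = A(t,Φ(t,y)),  Ẽ(t,y) = A(t,Φ) + (1-Φ²) B(t,Φ),  P = recDx Φ  (all smooth on the strip: `rec_comp`, `R325.recDx_contDiffOn`;  1/Q smooth because Q > 0: `ContDiffOn.div`/`inv`).
   A' := Ã Q,      C' := C(t,Φ),      N := P² Ẽ / Q - Ã Q,      B' := N/(1-y²)  (`rec_hadamard2`:  at y = ±1:  Φ = ±1, Ẽ = Ã, Q = P, so N = P Ã - Ã P = 0).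
So  (1-y²) B' = N  on the strip and   A' + (1-y²) B' = P² Ẽ / Q.
RedMetric:  for y ∈ [-1,1]:  Φ(t,y) ∈ [-1,1] (`RecFlow.mem_Icc`), so Ã > 0, Ẽ > 0, C(t,Φ) > 0 by `hM.posA/posE/posC`; P > 0, Q > 0.
Logarithms, y ∈ (-1,1), z := Φ(t,y) ∈ (-1,1):
   (A' + (1-y²)B')/(1-y²) = P² Ẽ/(Q (1-y²)) = P² Ẽ/(1-z²),    log = log(Ẽ/(1-z²)) + 2 log P          (`Real.log_mul`, `Real.log_pow`),
   A' (1-y²) = Ã (1-z²),      C' = C(t,z).
-/
import Claimed.Agent.R324.Rec.CoefQ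

set_option autoImplicit false

namespace Claimed.Agent.R324

open Set Filter Topology
open scoped ContDiff
open Claimed.Agent.R325 (recS recDx recDt)

variable {t₀ T : ℝ} {A B C V Φ : ℝ × ℝ → ℝ}

theorem rec_coef (hM : RedMetric t₀ T A B C) (h : RecFlow t₀ T V Φ) :
    ∃ A' B' C' : ℝ × ℝ → ℝ, RedMetric t₀ T A' B' C' ∧
      ∀ t ∈ Ioo t₀ T, ∀ y ∈ Ioo (-1 : ℝ) 1,
        laOf A' B' t y = laOf A B t (Φ (t, y)) + 2 * Real.log (recDx Φ (t, y)) ∧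
        lbOf A' t y = lbOf A t (Φ (t, y)) ∧ lcOf C' t y = lcOf C t (Φ (t, y)) := by
  obtain ⟨Q, hQ, hQe, hQpos, hQ1, hQm1⟩ := rec_Q h
  have hAt : ContDiffOn ℝ ∞ (fun p : ℝ × ℝ => A (p.1, Φ p)) (recS t₀ T) := rec_comp hM.smA h.sm
  have hBt : ContDiffOn ℝ ∞ (fun p : ℝ × ℝ => B (p.1, Φ p)) (recS t₀ T) := rec_comp hM.smB h.sm
  have hCt : ContDiffOn ℝ ∞ (fun p : ℝ × ℝ => C (p.1, Φ p)) (recS t₀ T) := rec_comp hM.smC h.sm
  have hEt : ContDiffOn ℝ ∞ (fun p : ℝ × ℝ => A (p.1, Φ p) + (1 - Φ p ^ 2) * B (p.1, Φ p))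
      (recS t₀ T) := hAt.add ((contDiffOn_const.sub (h.sm.pow 2)).mul hBt)
  have hP : ContDiffOn ℝ ∞ (recDx Φ) (recS t₀ T) := R325.recDx_contDiffOn h.sm
  have hQne : ∀ p ∈ recS t₀ T, Q p ≠ 0 := fun p hp => (hQpos p.1 (R325.mem_recS.1 hp) p.2).ne'
  have hN : ContDiffOn ℝ ∞ (fun p : ℝ × ℝ =>
      recDx Φ p ^ 2 * (A (p.1, Φ p) + (1 - Φ p ^ 2) * B (p.1, Φ p)) / Q p - A (p.1, Φ p) * Q p)
      (recS t₀ T) := (((hP.pow 2).mul hEt).div hQ hQne).sub (hAt.mul hQ)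
  obtain ⟨B', hB', hB'e⟩ := rec_hadamard2 hN
    (fun t ht => by
      have hp : recDx Φ (t, 1) ≠ 0 := (h.dpos t ht 1).ne'
      simp only [h.one t ht, hQ1 t ht]
      field_simp
      ring)
    (fun t ht => by
      have hp : recDx Φ (t, -1) ≠ 0 := (h.dpos t ht (-1)).ne'
      simp only [h.neg_one t ht, hQm1 t ht]
      field_simp
      ring)
  -- the key identity
  have hE : ∀ t ∈ Ioo t₀ T, ∀ y : ℝ, A (t, Φ (t, y)) * Q (t, y) + (1 - y ^ 2) * B' (t, y)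
      = recDx Φ (t, y) ^ 2 * (A (t, Φ (t, y)) + (1 - Φ (t, y) ^ 2) * B (t, Φ (t, y))) / Q (t, y) := by
    intro t ht y
    rw [← hB'e t ht y]
    ring
  refine ⟨fun p => A (p.1, Φ p) * Q p, B', fun p => C (p.1, Φ p),
    ⟨hAt.mul hQ, hB', hCt, ?_, ?_, ?_⟩, ?_⟩
  · intro t ht y hy
    exact mul_pos (hM.posA t ht _ (h.mem_Icc ht hy)) (hQpos t ht y)
  · intro t ht y hy
    show 0 < A (t, Φ (t, y)) * Q (t, y) + (1 - y ^ 2) * B' (t, y)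
    rw [hE t ht y]
    exact div_pos (mul_pos (pow_pos (h.dpos t ht y) 2) (hM.posE t ht _ (h.mem_Icc ht hy)))
      (hQpos t ht y)
  · intro t ht y hy
    exact hM.posC t ht _ (h.mem_Icc ht hy)
  · intro t ht y hy
    have hz := h.mem_Ioo ht hy
    have hzc : Φ (t, y) ∈ Icc (-1 : ℝ) 1 := ⟨hz.1.le, hz.2.le⟩
    have hy2 : 0 < 1 - y ^ 2 := by nlinarith [hy.1, hy.2]
    have hz2 : 0 < 1 - Φ (t, y) ^ 2 := by nlinarith [hz.1, hz.2]
    have hPp := h.dpos t ht y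
    have hEp := hM.posE t ht _ hzc
    have hQp := hQpos t ht y
    refine ⟨?_, ?_, rfl⟩
    · show Real.log ((A (t, Φ (t, y)) * Q (t, y) + (1 - y ^ 2) * B' (t, y)) / (1 - y ^ 2)) = _
      rw [hE t ht y]
      unfold laOf
      have e : recDx Φ (t, y) ^ 2 * (A (t, Φ (t, y)) + (1 - Φ (t, y) ^ 2) * B (t, Φ (t, y)))
          / Q (t, y) / (1 - y ^ 2)
          = (A (t, Φ (t, y)) + (1 - Φ (t, y) ^ 2) * B (t, Φ (t, y))) / (1 - Φ (t, y) ^ 2)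
            * recDx Φ (t, y) ^ 2 := by
        rw [hQe t ht y]
        field_simp
      rw [e, Real.log_mul (div_pos hEp hz2).ne' (pow_pos hPp 2).ne', Real.log_pow]
      push_cast
      ring
    · show Real.log (A (t, Φ (t, y)) * Q (t, y) * (1 - y ^ 2)) = _
      unfold lbOf
      rw [hQe t ht y]
      congr 1
      ring

end Claimed.Agent.R324
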