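/-
Row 324, module R (reconstruction), file Rec/Defs: notation.   Architect of module R: helper489.
Blueprint: origin/helper232:docs/R324_blueprint.md, section 3.

PLAN OF MODULE R.   `S = recS t₀ T = (t₀,T) × ℝ` (R325/Pk04: `recS`, `recDx`, `recDt`, `rec_hadamard`, ...).
  V(t,y) := -χ(y)(1-y²)W(t,y)                              (`recV`;  χ = `recChi` = 1 on [-1,1], = 0 for |y| ≥ 2)
  Φ      := flow of V:  Φ_t = V(t,Φ), Φ(t₁,y) = y           (`RecFlow`;  Rec/Flow*.lean, uses `R213.ODE.exists_global_smooth_flow`)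
  Q      := (1-Φ²)/(1-y²)  smooth and positive on S           (Rec/Coef.lean)
  A' := A(t,Φ) Q,   C' := C(t,Φ),   B' := (Φ_y² E(t,Φ)/Q - A(t,Φ) Q)/(1-y²),   E := A + (1-y²) B
  a' = a(t,Φ) + 2 log Φ_y,  b' = b(t,Φ),  c' = c(t,Φ)   on (-1,1)
  covariance of rfA, rfB, rfC, scalRed, kPsi (Rec/Cov.lean), time derivatives (Rec/Time.lean), assembly (Rec/Main.lean).
-/
import Claimed.Agent.R324.Reduced
import Claimed.Agent.R325.Pk04

set_option autoImplicit false

namespace Claimed.Agent.R324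

open Set
open scoped ContDiff
open Claimed.Agent.R325 (recS recDx recDt)

/-- cut-off: `1` on `[-1,1]`, `0` for `|y| ≥ 2`. -/
noncomputable def recChi (y : ℝ) : ℝ := Real.smoothTransition ((4 - y ^ 2) / 3)

/-- the vector field whose flow removes the gauge term. -/
noncomputable def recV (W : ℝ × ℝ → ℝ) (p : ℝ × ℝ) : ℝ := -(recChi p.2 * ((1 - p.2 ^ 2) * W p))

/-- `Φ` is a smooth flow of the time dependent vector field `V` on the strip `(t₀,T) × ℝ` which fixes `y = ±1`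
and is increasing in `y`. -/
structure RecFlow (t₀ T : ℝ) (V Φ : ℝ × ℝ → ℝ) : Prop where
  sm : ContDiffOn ℝ ∞ Φ (recS t₀ T)
  ode : ∀ t ∈ Ioo t₀ T, ∀ y, HasDerivAt (fun s => Φ (s, y)) (V (t, Φ (t, y))) t
  dpos : ∀ t ∈ Ioo t₀ T, ∀ y, 0 < recDx Φ (t, y)
  one : ∀ t ∈ Ioo t₀ T, Φ (t, 1) = 1
  neg_one : ∀ t ∈ Ioo t₀ T, Φ (t, -1) = -1

end Claimed.Agent.R324
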