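/-
Row 324, module R, file Rec/Cov (R4): covariance of `rfA, rfB, rfC, scalRed, kPsi` under a change of the radial coordinate.  One-variable calculus.

`RecCov`:  near `y`:   a' = a∘φ + 2 log φ',   β' = β∘φ,   γ' = γ∘φ,    φ smooth with φ' > 0,   a, β, γ smooth near `φ y`.
Write p = φ'(y) > 0, p₂ = φ''(y), r = φ y.  Then (chain rule; use `Filter.EventuallyEq.deriv_eq`, and `Filter.EventuallyEq.deriv` to get the equality of the derivatives as germs, for the second derivatives)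
   β'_y = β_r p,     β'_yy = β_rr p² + β_r p₂    (same for γ),       a'_y = a_r p + 2 p₂/p,        exp(-a'(y)) = exp(-a(r))/p²    (`Real.exp_neg, Real.exp_add, Real.exp_log`, or `Real.exp_sub`…).
Suggested helper lemmas (prefix `recCov_`):
   `recCov_d1`:  f smooth at `φ y`, f' =ᶠ[𝓝 y] f∘φ  ⟹  deriv f' =ᶠ[𝓝 y] fun z => deriv f (φ z) * deriv φ z       (f is differentiable in a neighbourhood of `φ y`: `ContDiffAt.eventually` + continuity of φ)
   `recCov_d2`:  … ⟹  deriv (deriv f') y = deriv (deriv f) (φ y) * (deriv φ y)^2 + deriv f (φ y) * deriv (deriv φ) y.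
Then unfold `rfA` etc., rewrite, `field_simp`, `ring`.
   rfB:  e^{-a}/p² ( β_rr p² + β_r p₂ - (a_r p + 2p₂/p) β_r p/2 + q/2 β_r² p² + β_r γ_r p² ) = e^{-a}( β_rr - a_r β_r/2 + q/2 β_r² + β_r γ_r );  the terms without derivative: exp(-β'(y)) = exp(-β(r)).
`scalRed` is a combination of the three;  `kPsi = exp(-γ) - exp(-a) γ_r²/4`.
-/
import Claimed.Agent.R324.Rec.Defs

set_option autoImplicit false

namespace Claimed.Agent.R324

open Set Filter Topology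
open scoped ContDiff

structure RecCov (a β γ a' β' γ' φ : ℝ → ℝ) (y : ℝ) : Prop where
  hφ : ContDiff ℝ ∞ φ
  hpos : ∀ z, 0 < deriv φ z
  ha : ContDiffAt ℝ ∞ a (φ y)
  hβ : ContDiffAt ℝ ∞ β (φ y)
  hγ : ContDiffAt ℝ ∞ γ (φ y)
  ea : a' =ᶠ[𝓝 y] fun z => a (φ z) + 2 * Real.log (deriv φ z)
  eβ : β' =ᶠ[𝓝 y] fun z => β (φ z)
  eγ : γ' =ᶠ[𝓝 y] fun z => γ (φ z)

theorem recCov_d1 {f f' φ : ℝ → ℝ} {y : ℝ} (hφ : ContDiff ℝ ∞ φ) (hf : ContDiffAt ℝ ∞ f (φ y))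
    (e : f' =ᶠ[𝓝 y] fun z => f (φ z)) :
    deriv f' =ᶠ[𝓝 y] fun z => deriv f (φ z) * deriv φ z := by
  have h1 : ContDiffAt ℝ 1 f (φ y) := hf.of_le (by exact_mod_cast le_top)
  have h2 : ∀ᶠ x in 𝓝 (φ y), ContDiffAt ℝ 1 f x := h1.eventually (by simp)
  have h3 : ∀ᶠ z in 𝓝 y, ContDiffAt ℝ 1 f (φ z) := hφ.continuous.continuousAt.eventually h2
  refine e.deriv.trans ?_
  filter_upwards [h3] with z hz
  have hd : DifferentiableAt ℝ f (φ z) := hz.differentiableAt (by norm_num)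
  have hdφ : DifferentiableAt ℝ φ z := (hφ.differentiable (by simp)).differentiableAt
  exact (hd.hasDerivAt.comp z hdφ.hasDerivAt).deriv

theorem recCov_d1' {f f' φ : ℝ → ℝ} {y : ℝ} (hφ : ContDiff ℝ ∞ φ) (hf : ContDiffAt ℝ ∞ f (φ y))
    (e : f' =ᶠ[𝓝 y] fun z => f (φ z)) :
    deriv f' y = deriv f (φ y) * deriv φ y :=
  (recCov_d1 hφ hf e).eq_of_nhds

theorem recCov_hasDerivAt_dφ {φ : ℝ → ℝ} (hφ : ContDiff ℝ ∞ φ) (y : ℝ) :
    HasDerivAt (deriv φ) (deriv (deriv φ) y) y := by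
  have h2 : ContDiff ℝ ∞ (deriv φ) := (contDiff_infty_iff_deriv.mp hφ).2
  exact ((h2.differentiable (by simp)).differentiableAt).hasDerivAt

theorem recCov_d2 {f f' φ : ℝ → ℝ} {y : ℝ} (hφ : ContDiff ℝ ∞ φ) (hf : ContDiffAt ℝ ∞ f (φ y))
    (e : f' =ᶠ[𝓝 y] fun z => f (φ z)) :
    deriv (deriv f') y
      = deriv (deriv f) (φ y) * (deriv φ y) ^ 2 + deriv f (φ y) * deriv (deriv φ) y := by
  rw [(recCov_d1 hφ hf e).deriv_eq]
  have h1 : ContDiffAt ℝ 1 (deriv f) (φ y) :=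
    ContDiffAt.derivWithin (m := 1) (hf.of_le (show ((1 : ℕ∞ω) + 1) ≤ ∞ by
      norm_num
      exact WithTop.coe_le_coe.2 le_top)) le_rfl
  have hd : DifferentiableAt ℝ (deriv f) (φ y) := h1.differentiableAt (by norm_num)
  have hdφ : DifferentiableAt ℝ φ y := (hφ.differentiable (by simp)).differentiableAt
  have hc : HasDerivAt (fun z => deriv f (φ z)) (deriv (deriv f) (φ y) * deriv φ y) y :=
    hd.hasDerivAt.comp y hdφ.hasDerivAt
  have h3 : deriv (fun z => deriv f (φ z) * deriv φ z) y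
      = deriv (deriv f) (φ y) * deriv φ y * deriv φ y + deriv f (φ y) * deriv (deriv φ) y :=
    (hc.mul (recCov_hasDerivAt_dφ hφ y)).deriv
  rw [h3]
  ring

theorem recCov_da {a a' φ : ℝ → ℝ} {y : ℝ} (hφ : ContDiff ℝ ∞ φ) (hpos : ∀ z, 0 < deriv φ z)
    (ha : ContDiffAt ℝ ∞ a (φ y))
    (e : a' =ᶠ[𝓝 y] fun z => a (φ z) + 2 * Real.log (deriv φ z)) :
    deriv a' y = deriv a (φ y) * deriv φ y + 2 * (deriv (deriv φ) y / deriv φ y) := by
  rw [e.deriv_eq]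
  have hd : DifferentiableAt ℝ a (φ y) := ha.differentiableAt (by simp)
  have hdφ : DifferentiableAt ℝ φ y := (hφ.differentiable (by simp)).differentiableAt
  have hc : HasDerivAt (fun z => a (φ z)) (deriv a (φ y) * deriv φ y) y :=
    hd.hasDerivAt.comp y hdφ.hasDerivAt
  have hl : HasDerivAt (fun z => Real.log (deriv φ z)) (deriv (deriv φ) y / deriv φ y) y :=
    (recCov_hasDerivAt_dφ hφ y).log (hpos y).ne'
  exact (hc.add (hl.const_mul 2)).deriv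

theorem recCov_exp {a a' φ : ℝ → ℝ} {y : ℝ} (hpos : ∀ z, 0 < deriv φ z)
    (e : a' =ᶠ[𝓝 y] fun z => a (φ z) + 2 * Real.log (deriv φ z)) :
    Real.exp (-a' y) = Real.exp (-a (φ y)) / (deriv φ y) ^ 2 := by
  rw [e.eq_of_nhds]
  have hp := hpos y
  have h1 : -(a (φ y) + 2 * Real.log (deriv φ y))
      = -a (φ y) - (Real.log (deriv φ y) + Real.log (deriv φ y)) := by ring
  rw [h1, Real.exp_sub, Real.exp_add, Real.exp_log hp, sq]

variable {a β γ a' β' γ' φ : ℝ → ℝ} {y : ℝ}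

theorem RecCov.rfA_eq (h : RecCov a β γ a' β' γ' φ y) (q : ℝ) :
    rfA q a' β' γ' y = rfA q a β γ (φ y) := by
  have hp : deriv φ y ≠ 0 := (h.hpos y).ne'
  unfold rfA
  rw [recCov_exp h.hpos h.ea, recCov_da h.hφ h.hpos h.ha h.ea, recCov_d2 h.hφ h.hβ h.eβ,
    recCov_d2 h.hφ h.hγ h.eγ, recCov_d1' h.hφ h.hβ h.eβ, recCov_d1' h.hφ h.hγ h.eγ]
  field_simp
  ring

theorem RecCov.rfB_eq (h : RecCov a β γ a' β' γ' φ y) (q : ℝ) :
    rfB q a' β' γ' y = rfB q a β γ (φ y) := by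
  have hp : deriv φ y ≠ 0 := (h.hpos y).ne'
  unfold rfB
  rw [recCov_exp h.hpos h.ea, recCov_da h.hφ h.hpos h.ha h.ea, recCov_d2 h.hφ h.hβ h.eβ,
    recCov_d1' h.hφ h.hβ h.eβ, recCov_d1' h.hφ h.hγ h.eγ, h.eβ.eq_of_nhds]
  field_simp
  ring

theorem RecCov.rfC_eq (h : RecCov a β γ a' β' γ' φ y) (q : ℝ) :
    rfC q a' β' γ' y = rfC q a β γ (φ y) := by
  have hp : deriv φ y ≠ 0 := (h.hpos y).ne'
  unfold rfC
  rw [recCov_exp h.hpos h.ea, recCov_da h.hφ h.hpos h.ha h.ea, recCov_d2 h.hφ h.hγ h.eγ,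
    recCov_d1' h.hφ h.hβ h.eβ, recCov_d1' h.hφ h.hγ h.eγ, h.eγ.eq_of_nhds]
  field_simp
  ring

theorem RecCov.scalRed_eq (h : RecCov a β γ a' β' γ' φ y) (q : ℝ) :
    scalRed q a' β' γ' y = scalRed q a β γ (φ y) := by
  unfold scalRed
  rw [h.rfA_eq, h.rfB_eq, h.rfC_eq]

theorem RecCov.kPsi_eq (h : RecCov a β γ a' β' γ' φ y) :
    kPsi a' γ' y = kPsi a γ (φ y) := by
  have hp : deriv φ y ≠ 0 := (h.hpos y).ne'
  unfold kPsi
  rw [recCov_exp h.hpos h.ea, recCov_d1' h.hφ h.hγ h.eγ, h.eγ.eq_of_nhds]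
  field_simp

end Claimed.Agent.R324
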