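/-
Row 324, module R, file Rec/Basic: calculus on the strip `recS a b = (a,b) × ℝ` (additions to R325/Pk04 `RecBasic`).
Available from R325/Pk04 (namespace `Claimed.Agent.R325`): `recS_isOpen`, `mem_recS`, `rec_slice_x`, `rec_slice_t`, `rec_differentiableAt`,
`recDx_eq_fderiv`, `recDt_eq_fderiv`, `recDx_contDiffOn`, `recDt_contDiffOn`, `rec_hasDerivAt_x`, `rec_hasDerivAt_t`, `rec_hadamard`.

SKETCHES.
* `rec_pd_comm`: copy of `R325.EngSm.pd_comm` (R325/Pk05.lean, line ~150) with `recS a b` instead of `Iio T ×ˢ univ`.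
* `rec_comp`: `hf.comp (contDiff_fst.contDiffOn.prodMk hΦ) (fun p hp => mem_recS.2 (mem_recS.1 hp))`.
* `rec_curve_hasDerivAt`: `f` has the Fréchet derivative `L = fderiv ℝ f (t, φ t)`; the curve `s ↦ (s, φ s)` has derivative `(1, v)`;
  `L (1,v) = L (1,0) + v * L (0,1)`; `L (1,0) = deriv (fun s => f (s, φ t)) t`, `L (0,1) = deriv (fun z => f (t,z)) (φ t)` (again chain rule, as in `recDx_eq_fderiv`).
* `rec_comp_hasDerivAt_x`: `(rec_hasDerivAt_x hf ht (Φ (t,y))).comp y (rec_hasDerivAt_x hΦ ht y)`.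
* `rec_hadamard2`: `rec_hadamard hf 1 h1` gives `f = (y-1) h₁`; at `y=-1`: `0 = -2 h₁(t,-1)`; `rec_hadamard` for `h₁` at `c = -1` gives `h₁ = (y+1) h₂`; take `h = -h₂`.
-/
import Claimed.Agent.R324.Rec.Defs

set_option autoImplicit false

namespace Claimed.Agent.R324

open Set Filter Topology
open scoped ContDiff
open Claimed.Agent.R325

variable {a b : ℝ} {f Φ : ℝ × ℝ → ℝ}

theorem rec_pd_comm (hf : ContDiffOn ℝ ∞ f (recS a b)) {q : ℝ × ℝ} (hq : q ∈ recS a b) :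
    recDt (recDx f) q = recDx (recDt f) q := by
  have hU : recS a b ∈ nhds q := (recS_isOpen a b).mem_nhds hq
  have hc : ContDiffAt ℝ ∞ f q := hf.contDiffAt hU
  have hdd : DifferentiableAt ℝ (fderiv ℝ f) q := by
    have h1 : ContDiffOn ℝ ∞ (fderiv ℝ f) (recS a b) :=
      ContDiffOn.fderiv_of_isOpen hf (recS_isOpen a b) (by simp)
    exact (h1.contDiffAt hU).differentiableAt (by simp)
  have hsymm : IsSymmSndFDerivAt ℝ f q := hc.isSymmSndFDerivAt (by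
    rw [minSmoothness_of_isRCLikeNormedField]
    exact (WithTop.coe_le_coe (a := (⊤ : ℕ∞)) (b := (2 : ℕ∞))).2 le_top)
  have key : ∀ v : ℝ × ℝ, fderiv ℝ (fun p => fderiv ℝ f p v) q
      = (fderiv ℝ (fderiv ℝ f) q).flip v := by
    intro v
    have := (hdd.hasFDerivAt.clm_apply (hasFDerivAt_const v q)).fderiv
    rw [this, ContinuousLinearMap.comp_zero, zero_add]
  have e1 : recDx f =ᶠ[nhds q] fun p => fderiv ℝ f p (0, 1) := by
    filter_upwards [hU] with p hp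
    exact recDx_eq_fderiv hf hp
  have e2 : recDt f =ᶠ[nhds q] fun p => fderiv ℝ f p (1, 0) := by
    filter_upwards [hU] with p hp
    exact recDt_eq_fderiv hf hp
  rw [recDt_eq_fderiv (recDx_contDiffOn hf) hq, recDx_eq_fderiv (recDt_contDiffOn hf) hq,
    e1.fderiv_eq, e2.fderiv_eq, key, key]
  exact hsymm _ _

theorem rec_comp (hf : ContDiffOn ℝ ∞ f (recS a b)) (hΦ : ContDiffOn ℝ ∞ Φ (recS a b)) :
    ContDiffOn ℝ ∞ (fun p : ℝ × ℝ => f (p.1, Φ p)) (recS a b) := by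
  exact hf.comp (contDiff_fst.contDiffOn.prodMk hΦ) (fun p hp => mem_recS.2 (mem_recS.1 hp))

theorem rec_comp_hasDerivAt_x (hf : ContDiffOn ℝ ∞ f (recS a b)) (hΦ : ContDiffOn ℝ ∞ Φ (recS a b))
    {t : ℝ} (ht : t ∈ Ioo a b) (y : ℝ) :
    HasDerivAt (fun ξ => f (t, Φ (t, ξ))) (recDx f (t, Φ (t, y)) * recDx Φ (t, y)) y := by
  exact (rec_hasDerivAt_x hf ht (Φ (t, y))).comp y (rec_hasDerivAt_x hΦ ht y)

/-- chain rule along a curve `s ↦ (s, φ s)` in an open set of the plane. -/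
theorem rec_curve_hasDerivAt {U : Set (ℝ × ℝ)} (hU : IsOpen U) (hf : ContDiffOn ℝ ∞ f U)
    {φ : ℝ → ℝ} {t v : ℝ} (hφ : HasDerivAt φ v t) (hmem : (t, φ t) ∈ U) :
    HasDerivAt (fun s => f (s, φ s))
      (deriv (fun s => f (s, φ t)) t + deriv (fun z => f (t, z)) (φ t) * v) t := by
  have hd : DifferentiableAt ℝ f (t, φ t) :=
    (hf.contDiffAt (hU.mem_nhds hmem)).differentiableAt (by simp)
  set L := fderiv ℝ f (t, φ t) with hL
  have hF : HasFDerivAt f L (t, φ t) := hd.hasFDerivAt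
  have h1 : HasDerivAt (fun s : ℝ => f (s, φ t)) (L (1, 0)) t := by
    have hγ : HasDerivAt (fun s : ℝ => ((s, φ t) : ℝ × ℝ)) ((1:ℝ), (0:ℝ)) t :=
      (hasDerivAt_id t).prodMk (hasDerivAt_const t (φ t))
    have hF' : HasFDerivAt f L ((fun s : ℝ => ((s, φ t) : ℝ × ℝ)) t) := hF
    exact hF'.comp_hasDerivAt t hγ
  have h2 : HasDerivAt (fun z : ℝ => f (t, z)) (L (0, 1)) (φ t) := by
    have hγ : HasDerivAt (fun z : ℝ => ((t, z) : ℝ × ℝ)) ((0:ℝ), (1:ℝ)) (φ t) :=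
      (hasDerivAt_const (φ t) t).prodMk (hasDerivAt_id (φ t))
    have hF' : HasFDerivAt f L ((fun z : ℝ => ((t, z) : ℝ × ℝ)) (φ t)) := hF
    exact hF'.comp_hasDerivAt (φ t) hγ
  have h3 : HasDerivAt (fun s : ℝ => f (s, φ s)) (L (1, v)) t := by
    have hγ : HasDerivAt (fun s : ℝ => ((s, φ s) : ℝ × ℝ)) ((1:ℝ), v) t :=
      (hasDerivAt_id t).prodMk hφ
    have hF' : HasFDerivAt f L ((fun s : ℝ => ((s, φ s) : ℝ × ℝ)) t) := hF
    exact hF'.comp_hasDerivAt t hγ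
  have h4 : L (1, v) = L (1, 0) + L (0, 1) * v := by
    have e : ((1:ℝ), v) = ((1:ℝ), (0:ℝ)) + v • ((0:ℝ), (1:ℝ)) := by
      ext <;> simp
    rw [e, map_add, map_smul, smul_eq_mul, mul_comm]
  rw [h1.deriv, h2.deriv, ← h4]
  exact h3

/-- Hadamard division by `1 - y²`. -/
theorem rec_hadamard2 (hf : ContDiffOn ℝ ∞ f (recS a b)) (h1 : ∀ t ∈ Ioo a b, f (t, 1) = 0)
    (h2 : ∀ t ∈ Ioo a b, f (t, -1) = 0) :
    ∃ h : ℝ × ℝ → ℝ, ContDiffOn ℝ ∞ h (recS a b) ∧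
      ∀ t ∈ Ioo a b, ∀ y : ℝ, f (t, y) = (1 - y ^ 2) * h (t, y) := by
  obtain ⟨g₁, hg₁, e₁⟩ := rec_hadamard hf 1 h1
  have h0 : ∀ t ∈ Ioo a b, g₁ (t, -1) = 0 := by
    intro t ht
    have h3 := e₁ t ht (-1)
    rw [h2 t ht] at h3
    linarith
  obtain ⟨g₂, hg₂, e₂⟩ := rec_hadamard hg₁ (-1) h0
  refine ⟨fun p => -g₂ p, hg₂.neg, fun t ht y => ?_⟩
  rw [e₁ t ht y, e₂ t ht y]
  ring

end Claimed.Agent.R324
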