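/-
Row 324, module R, file Rec/FlowAp (R1, part A2): the a-priori bound.

* `rec_apriori`:  `R213.ODE.APriori X` (see Claimed/Agent/R213/ODE/GlobalFlow.lean) for `X(τ,y) = (1, G(τ,y))`, `G` smooth on ℝ², `G = 0` for `|y| ≥ 2`.
   Given `R T'`:  `M` := bound of `|G|` on the compact set `[-(|R|+|T'|), |R|+|T'|] × [-2,2]` (`IsCompact.exists_bound_of_continuousOn`), so `|G| ≤ max M 0` on `[-(|R|+|T'|), |R|+|T'|] × ℝ`.
   `B := |R| + |T'| + (max M 0) * |T'|`.    For a curve `α` on `(-c,c)`:  `α₁' = 1`, so `|α₁(t) - α₁(0)| ≤ |t|` and then `|α₂(t) - α₂(0)| ≤ (max M 0) |t|`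
   (mean value inequality on the convex set `Ioo (-c) c`: `Convex.norm_image_sub_le_of_norm_hasDerivWithin_le`; first treat `α₁`, then `α₂`; components of a `HasDerivAt` into a product: `HasDerivAt.fst`/`.snd` or `hasDerivAt_prod…`/`HasFDerivAt.comp_hasDerivAt` with `ContinuousLinearMap.fst`).
   The norm on `ℝ × ℝ` is the max norm (`Prod.norm_def`).
-/
import Claimed.Agent.R324.Rec.Defs
import Claimed.Agent.R213.ODE.GlobalFlow

set_option autoImplicit false

namespace Claimed.Agent.R324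

open Set Filter Topology
open scoped ContDiff

theorem rec_apriori {G : ℝ × ℝ → ℝ} (hG : ContDiff ℝ ∞ G) (hG0 : ∀ τ y : ℝ, 2 ≤ |y| → G (τ, y) = 0) :
    R213.ODE.APriori (fun p : ℝ × ℝ => ((1 : ℝ), G p)) := by
  intro R T
  set L : ℝ := |R| + |T| with hL
  have hK : IsCompact (Icc (-L) L ×ˢ Icc (-2 : ℝ) 2) := isCompact_Icc.prod isCompact_Icc
  obtain ⟨M, hM⟩ := hK.exists_bound_of_continuousOn hG.continuous.continuousOn
  set M' : ℝ := max M 0 with hM'
  have hM'0 : 0 ≤ M' := le_max_right _ _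
  have hbd : ∀ p : ℝ × ℝ, |p.1| ≤ L → ‖G p‖ ≤ M' := by
    rintro ⟨τ, y⟩ hτ
    by_cases hy : 2 ≤ |y|
    · rw [hG0 τ y hy, norm_zero]; exact hM'0
    · have hy' : |y| ≤ 2 := le_of_lt (not_le.1 hy)
      exact (hM (τ, y) ⟨abs_le.1 hτ, abs_le.1 hy'⟩).trans (le_max_left _ _)
  refine ⟨L + M' * |T|, ?_⟩
  intro α c hc hcT hα0 hα t ht
  have hconv : Convex ℝ (Ioo (-c) c) := convex_Ioo _ _
  have h0mem : (0 : ℝ) ∈ Ioo (-c) c := ⟨by linarith, hc⟩
  have hcT' : c ≤ |T| := hcT.trans (le_abs_self T)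
  have hRR : R ≤ |R| := le_abs_self R
  have habs : ∀ s ∈ Ioo (-c) c, |s| ≤ c := fun s hs => abs_le.2 ⟨hs.1.le, hs.2.le⟩
  -- first component
  have hd1 : ∀ s ∈ Ioo (-c) c, HasDerivAt (fun r => (α r).1) 1 s := fun s hs =>
    (ContinuousLinearMap.fst ℝ ℝ ℝ).hasFDerivAt.comp_hasDerivAt s (hα s hs)
  have hd2 : ∀ s ∈ Ioo (-c) c, HasDerivAt (fun r => (α r).2) (G (α s)) s := fun s hs =>
    (ContinuousLinearMap.snd ℝ ℝ ℝ).hasFDerivAt.comp_hasDerivAt s (hα s hs)
  have h1 : ∀ s ∈ Ioo (-c) c, |(α s).1| ≤ L := by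
    intro s hs
    have := hconv.norm_image_sub_le_of_norm_hasDerivWithin_le (f := fun r => (α r).1)
      (f' := fun _ => (1 : ℝ)) (C := 1) (fun x hx => (hd1 x hx).hasDerivWithinAt)
      (fun x _ => by simp) h0mem hs
    simp only [Real.norm_eq_abs, sub_zero, one_mul] at this
    have h3 : |(α 0).1| ≤ R := (norm_fst_le (α 0)).trans hα0
    have h4 : |(α s).1| ≤ |(α s).1 - (α 0).1| + |(α 0).1| := by
      have := abs_add_le ((α s).1 - (α 0).1) ((α 0).1)
      simpa using this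
    have := habs s hs
    linarith
  have h2 : |(α t).2| ≤ |R| + M' * |T| := by
    have := hconv.norm_image_sub_le_of_norm_hasDerivWithin_le (f := fun r => (α r).2)
      (f' := fun s => G (α s)) (C := M') (fun x hx => (hd2 x hx).hasDerivWithinAt)
      (fun x hx => hbd (α x) (h1 x hx)) h0mem ht
    simp only [Real.norm_eq_abs, sub_zero] at this
    have h3 : |(α 0).2| ≤ R := (norm_snd_le (α 0)).trans hα0
    have h4 : |(α t).2| ≤ |(α t).2 - (α 0).2| + |(α 0).2| := by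
      have := abs_add_le ((α t).2 - (α 0).2) ((α 0).2)
      simpa using this
    have h5 : M' * |t| ≤ M' * |T| := mul_le_mul_of_nonneg_left ((habs t ht).trans hcT') hM'0
    linarith
  rw [Prod.norm_def]
  refine max_le ?_ ?_
  · have := h1 t ht
    have h6 : 0 ≤ M' * |T| := mul_nonneg hM'0 (abs_nonneg _)
    rw [Real.norm_eq_abs]; linarith
  · rw [Real.norm_eq_abs]
    have : 0 ≤ |T| := abs_nonneg _
    linarith

end Claimed.Agent.R324
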