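/-
Row 324, module R, file Rec/FlowB (R1, part B): the flow of a smooth time dependent scalar field on ℝ × ℝ.

`rec_flow_global`:  X(τ,y) := (1, G(τ,y)) is smooth on ℝ² and satisfies `APriori` (`rec_apriori`), so `R213.ODE.exists_global_smooth_flow` gives `fl : ℝ → ℝ×ℝ → ℝ×ℝ`:
  `IsFlow X fl` (i.e. `fl 0 x = x`, `HasDerivAt (fun r => fl r x) (X (fl s x)) s`), jointly smooth, and uniqueness:
  every integral curve `α` of `X` on `Ioo a b ∋ s₀` is `α t = fl (t - s₀) (α s₀)`.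
  Ψ(τ,y) := (fl (τ - τ₁) (τ₁, y)).2.
  (i) smooth: composition.  (ii) Ψ(τ₁,y) = y.
  (iii) first component: `(fl s x).1 = x.1 + s` (its derivative is 1: `HasDerivAt.fst`/`hasDerivAt_prod...`; `s ↦ (fl s x).1 - s` has derivative 0: `is_const_of_deriv_eq_zero`),
        hence `fl (τ-τ₁) (τ₁,y) = (τ, Ψ(τ,y))` and `d/dτ Ψ = G(τ, Ψ)` (`HasDerivAt.comp_sub_const`, second component).
  (iv) uniqueness: `α(τ) := (τ, φ τ)` is an integral curve of `X` on `Ioo (min τ τ₁ - 1) (max τ τ₁ + 1)`.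
-/
import Claimed.Agent.R324.Rec.FlowAp

set_option autoImplicit false

namespace Claimed.Agent.R324

open Set Filter Topology
open scoped ContDiff

theorem rec_flow_global {G : ℝ × ℝ → ℝ} (hG : ContDiff ℝ ∞ G)
    (hG0 : ∀ τ y : ℝ, 2 ≤ |y| → G (τ, y) = 0) (τ₁ : ℝ) :
    ∃ Ψ : ℝ × ℝ → ℝ, ContDiff ℝ ∞ Ψ ∧ (∀ y, Ψ (τ₁, y) = y) ∧
      (∀ τ y, HasDerivAt (fun s => Ψ (s, y)) (G (τ, Ψ (τ, y))) τ) ∧
      (∀ φ : ℝ → ℝ, (∀ τ, HasDerivAt φ (G (τ, φ τ)) τ) → ∀ τ, φ τ = Ψ (τ, φ τ₁)) := by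
  have hX : ContDiff ℝ ∞ (fun p : ℝ × ℝ => ((1 : ℝ), G p)) := contDiff_const.prodMk hG
  obtain ⟨fl, hfl, hsm, -, huniq, -⟩ :=
    R213.ODE.exists_global_smooth_flow hX (rec_apriori hG hG0)
  -- first component of the flow
  have hfst : ∀ (x : ℝ × ℝ) (s : ℝ), (fl s x).1 = x.1 + s := by
    intro x s
    have hd : ∀ r, HasDerivAt (fun r => (fl r x).1 - r) 0 r := by
      intro r
      have h1 : HasDerivAt (fun r => (fl r x).1) 1 r := (hfl.2 x r).fst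
      have h2 := h1.sub (hasDerivAt_id r)
      rw [sub_self] at h2
      exact h2
    have hc := is_const_of_deriv_eq_zero (f := fun r => (fl r x).1 - r)
      (fun r => (hd r).differentiableAt) (fun r => (hd r).deriv) s 0
    simp only [hfl.1, sub_zero] at hc
    linarith
  have hpt : ∀ τ y : ℝ, fl (τ - τ₁) (τ₁, y) = (τ, (fl (τ - τ₁) (τ₁, y)).2) := by
    intro τ y
    refine Prod.ext ?_ rfl
    rw [hfst]
    simp
  refine ⟨fun p => (fl (p.1 - τ₁) (τ₁, p.2)).2, ?_, ?_, ?_, ?_⟩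
  · have h1 : ContDiff ℝ ∞ (fun p : ℝ × ℝ => ((p.1 - τ₁, ((τ₁ : ℝ), p.2)) : ℝ × (ℝ × ℝ))) :=
      (contDiff_fst.sub contDiff_const).prodMk (contDiff_const.prodMk contDiff_snd)
    exact contDiff_snd.comp (hsm.comp h1)
  · intro y
    simp [hfl.1]
  · intro τ y
    have h1 : HasDerivAt (fun r => fl r (τ₁, y)) ((1 : ℝ), G (fl (τ - τ₁) (τ₁, y))) (τ - τ₁) :=
      hfl.2 (τ₁, y) (τ - τ₁)
    have h2 := (h1.comp_sub_const τ τ₁).snd
    rw [hpt τ y] at h2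
    exact h2
  · intro φ hφ τ
    have hα : ∀ t ∈ Ioo (min τ τ₁ - 1) (max τ τ₁ + 1),
        HasDerivAt (fun t => ((t, φ t) : ℝ × ℝ)) ((1 : ℝ), G (t, φ t)) t :=
      fun t _ => (hasDerivAt_id t).prodMk (hφ t)
    have h := huniq (fun t => ((t, φ t) : ℝ × ℝ)) (min τ τ₁ - 1) (max τ τ₁ + 1) τ₁
      ⟨by linarith [min_le_right τ τ₁], by linarith [le_max_right τ τ₁]⟩ hα τ
      ⟨by linarith [min_le_left τ τ₁], by linarith [le_max_left τ τ₁]⟩
    exact congrArg Prod.snd h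

end Claimed.Agent.R324
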