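/-
Row 324, module R, file Rec/FlowC (R1, part C): the flow of a smooth time dependent scalar field on the strip (t₀,T) × ℝ.

`rec_flow`:  θ, κ from `rec_theta`.   G(τ,y) := deriv θ τ * V(θ τ, y):  smooth on ℝ² (`hV.comp_contDiff`, `θ τ ∈ (t₀,T)`; `deriv θ` smooth: `contDiff_infty_iff_deriv`), `= 0` for `|y| ≥ 2`.
  Ψ from `rec_flow_global hG hG0 (κ t₁)`.     Φ(t,y) := Ψ(κ t, y).
  (i) smooth on the strip (composition with `κ`).   (ii) Φ(t₁,y) = y.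
  (iii) `θ(κ t) = t` on the open interval ⟹ `deriv θ (κ t) * deriv κ t = 1` (chain rule + `HasDerivAt.unique`/`EventuallyEq.deriv_eq` with `id`).
        d/dt Φ(t,y) = G(κ t, Φ) * κ'(t) = θ'(κ t) κ'(t) V(θ(κ t), Φ) = V(t, Φ).
  (iv) uniqueness: for a solution `φ` on (t₀,T) put `φ̃ := φ ∘ θ`; `φ̃' = V(θ τ, φ̃ τ) θ'(τ) = G(τ, φ̃ τ)`; so `φ̃ τ = Ψ(τ, φ̃(κ t₁)) = Ψ(τ, φ t₁)`; evaluate at `τ = κ t`.
-/
import Claimed.Agent.R324.Rec.FlowA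
import Claimed.Agent.R324.Rec.FlowB

set_option autoImplicit false

namespace Claimed.Agent.R324

open Set Filter Topology
open scoped ContDiff
open Claimed.Agent.R325 (recS recDx recDt)

theorem rec_flow {t₀ T t₁ : ℝ} (ht₁ : t₁ ∈ Ioo t₀ T) {V : ℝ × ℝ → ℝ}
    (hV : ContDiffOn ℝ ∞ V (recS t₀ T))
    (hV0 : ∀ t ∈ Ioo t₀ T, ∀ y : ℝ, 2 ≤ |y| → V (t, y) = 0) :
    ∃ Φ : ℝ × ℝ → ℝ, ContDiffOn ℝ ∞ Φ (recS t₀ T) ∧ (∀ y, Φ (t₁, y) = y) ∧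
      (∀ t ∈ Ioo t₀ T, ∀ y, HasDerivAt (fun s => Φ (s, y)) (V (t, Φ (t, y))) t) ∧
      (∀ φ : ℝ → ℝ, (∀ t ∈ Ioo t₀ T, HasDerivAt φ (V (t, φ t)) t) →
        ∀ t ∈ Ioo t₀ T, φ t = Φ (t, φ t₁)) := by
  obtain ⟨θ, κ, hθ, hθm, hκ, hθκ⟩ := rec_theta (ht₁.1.trans ht₁.2)
  have hθ' : ContDiff ℝ ∞ (deriv θ) := (contDiff_infty_iff_deriv.1 hθ).2
  have hθd : ∀ τ, HasDerivAt θ (deriv θ τ) τ := fun τ =>
    ((hθ.differentiable (by simp)) τ).hasDerivAt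
  set G : ℝ × ℝ → ℝ := fun p => deriv θ p.1 * V (θ p.1, p.2) with hGdef
  have hG : ContDiff ℝ ∞ G := by
    refine (hθ'.comp contDiff_fst).mul ?_
    refine hV.comp_contDiff (f := fun p : ℝ × ℝ => (θ p.1, p.2))
      ((hθ.comp contDiff_fst).prodMk contDiff_snd) ?_
    intro p
    exact Claimed.Agent.R325.mem_recS.2 (hθm p.1)
  have hG0 : ∀ τ y : ℝ, 2 ≤ |y| → G (τ, y) = 0 := by
    intro τ y hy
    show deriv θ τ * V (θ τ, y) = 0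
    rw [hV0 (θ τ) (hθm τ) y hy, mul_zero]
  obtain ⟨Ψ, hΨ, hΨ1, hΨd, hΨu⟩ := rec_flow_global hG hG0 (κ t₁)
  have hκd : ∀ t ∈ Ioo t₀ T, HasDerivAt κ (deriv κ t) t := fun t ht =>
    ((hκ.contDiffAt (Ioo_mem_nhds ht.1 ht.2)).differentiableAt (by simp)).hasDerivAt
  have hprod : ∀ t ∈ Ioo t₀ T, deriv θ (κ t) * deriv κ t = 1 := by
    intro t ht
    have h1 : HasDerivAt (θ ∘ κ) (deriv θ (κ t) * deriv κ t) t := (hθd (κ t)).comp t (hκd t ht)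
    have h2 : HasDerivAt (θ ∘ κ) 1 t := by
      refine (hasDerivAt_id t).congr_of_eventuallyEq ?_
      filter_upwards [Ioo_mem_nhds ht.1 ht.2] with s hs
      exact hθκ s hs
    exact h1.unique h2
  refine ⟨fun p => Ψ (κ p.1, p.2), ?_, ?_, ?_, ?_⟩
  · refine hΨ.comp_contDiffOn (f := fun p : ℝ × ℝ => (κ p.1, p.2)) ?_
    refine ContDiffOn.prodMk ?_ contDiffOn_snd
    exact hκ.comp contDiffOn_fst (fun p hp => Claimed.Agent.R325.mem_recS.1 hp)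
  · intro y
    exact hΨ1 y
  · intro t ht y
    have h1 : HasDerivAt ((fun s => Ψ (s, y)) ∘ κ) (G (κ t, Ψ (κ t, y)) * deriv κ t) t :=
      (hΨd (κ t) y).comp t (hκd t ht)
    have h2 : G (κ t, Ψ (κ t, y)) * deriv κ t = V (t, Ψ (κ t, y)) := by
      show deriv θ (κ t) * V (θ (κ t), Ψ (κ t, y)) * deriv κ t = _
      rw [hθκ t ht, mul_right_comm, hprod t ht, one_mul]
    rw [h2] at h1
    exact h1
  · intro φ hφ t ht
    have h1 : ∀ τ, HasDerivAt (φ ∘ θ) (G (τ, (φ ∘ θ) τ)) τ := by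
      intro τ
      have h2 : HasDerivAt (φ ∘ θ) (V (θ τ, φ (θ τ)) * deriv θ τ) τ :=
        (hφ (θ τ) (hθm τ)).comp τ (hθd τ)
      have h3 : G (τ, (φ ∘ θ) τ) = V (θ τ, φ (θ τ)) * deriv θ τ := by
        show deriv θ τ * V (θ τ, φ (θ τ)) = _
        rw [mul_comm]
      rw [h3]
      exact h2
    have h4 := hΨu (φ ∘ θ) h1 (κ t)
    simp only [Function.comp_apply, hθκ t ht, hθκ t₁ ht₁] at h4
    exact h4

end Claimed.Agent.R324
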