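/-
Row 324, module R, file Rec/FlowD (R2): properties of the flow; existence of a `RecFlow`.

* `rec_flow_dtdx` (variational equation).  `recDt Φ (s,ξ) = V(s, Φ(s,ξ))` on the strip (`(hode ..).deriv`), so
     recDt (recDx Φ) (t,y) = recDx (recDt Φ) (t,y)                         (`rec_pd_comm`)
                           = deriv (fun ξ => V (t, Φ (t, ξ))) y            (the two functions of ξ agree everywhere for fixed t ∈ (t₀,T))
                           = recDx V (t, Φ(t,y)) * recDx Φ (t,y)           (`rec_comp_hasDerivAt_x`),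
  and `HasDerivAt (fun s => recDx Φ (s,y)) (recDt (recDx Φ) (t,y)) t` by `R325.rec_hasDerivAt_t (R325.recDx_contDiffOn hΦ) ht y`.
* `rec_flow_dpos`.  Fix `y`.  u(s) := recDx Φ (s,y),  c(s) := recDx V (s, Φ(s,y))  (smooth on (t₀,T): `rec_comp` + `R325.rec_slice_t`),  I(s) := ∫ r in t₁..s, c r
  (`R325.rec_primitive_t_hasDerivAt`: I' = c).   w := u * exp(-I) has derivative 0 on (t₀,T), so it is constant (`IsOpen.is_const_of_deriv_eq_zero`/`Convex.is_const_of_fderivWithin_eq_zero`, or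
  `constant_of_has_deriv_right_zero` …),  w(t₁) = u(t₁) = deriv (fun ξ => ξ) y = 1.   So u = exp(I) > 0.
* `exists_recFlow`.  t₁ := (t₀+T)/2, `rec_flow`;  `one`: apply the uniqueness clause to the constant curve `φ = 1` (`V(t,1) = 0`);  same for `-1`.
-/
import Claimed.Agent.R324.Rec.Basic
import Claimed.Agent.R324.Rec.FlowC

set_option autoImplicit false

namespace Claimed.Agent.R324

open Set Filter Topology
open scoped ContDiff
open Claimed.Agent.R325 (recS recDx recDt)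

variable {t₀ T : ℝ} {V Φ : ℝ × ℝ → ℝ}

theorem rec_flow_dtdx (hV : ContDiffOn ℝ ∞ V (recS t₀ T)) (hΦ : ContDiffOn ℝ ∞ Φ (recS t₀ T))
    (hode : ∀ t ∈ Ioo t₀ T, ∀ y, HasDerivAt (fun s => Φ (s, y)) (V (t, Φ (t, y))) t)
    {t : ℝ} (ht : t ∈ Ioo t₀ T) (y : ℝ) :
    HasDerivAt (fun s => recDx Φ (s, y)) (recDx V (t, Φ (t, y)) * recDx Φ (t, y)) t := by
  have h1 := R325.rec_hasDerivAt_t (R325.recDx_contDiffOn hΦ) ht y
  have h2 : recDt (recDx Φ) (t, y) = recDx (recDt Φ) (t, y) := rec_pd_comm hΦ (R325.mem_recS.2 ht)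
  have h3 : recDx (recDt Φ) (t, y) = recDx V (t, Φ (t, y)) * recDx Φ (t, y) := by
    have e : (fun ξ => recDt Φ (t, ξ)) = fun ξ => V (t, Φ (t, ξ)) := by
      funext ξ
      exact (hode t ht ξ).deriv
    show deriv (fun ξ => recDt Φ (t, ξ)) y = _
    rw [e]
    exact (rec_comp_hasDerivAt_x hV hΦ ht y).deriv
  rw [h2, h3] at h1
  exact h1

theorem rec_flow_dpos (hV : ContDiffOn ℝ ∞ V (recS t₀ T)) (hΦ : ContDiffOn ℝ ∞ Φ (recS t₀ T))
    (hode : ∀ t ∈ Ioo t₀ T, ∀ y, HasDerivAt (fun s => Φ (s, y)) (V (t, Φ (t, y))) t)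
    {t₁ : ℝ} (ht₁ : t₁ ∈ Ioo t₀ T) (h0 : ∀ y, Φ (t₁, y) = y)
    {t : ℝ} (ht : t ∈ Ioo t₀ T) (y : ℝ) : 0 < recDx Φ (t, y) := by
  set c : ℝ → ℝ := fun s => recDx V (s, Φ (s, y)) with hc
  have hcs : ContDiffOn ℝ ∞ c (Ioo t₀ T) :=
    R325.rec_slice_t (rec_comp (R325.recDx_contDiffOn hV) hΦ) y
  set I : ℝ → ℝ := fun s => ∫ r in t₁..s, c r with hI
  have hId : ∀ s ∈ Ioo t₀ T, HasDerivAt I (c s) s := fun s hs =>
    R325.rec_primitive_t_hasDerivAt hcs ht₁ hs
  set w : ℝ → ℝ := fun s => recDx Φ (s, y) * Real.exp (-I s) with hw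
  have hwd : ∀ s ∈ Ioo t₀ T, HasDerivAt w 0 s := by
    intro s hs
    have h1 := rec_flow_dtdx hV hΦ hode hs y
    have h2 : HasDerivAt (fun s => Real.exp (-I s)) (Real.exp (-I s) * (-c s)) s := (hId s hs).neg.exp
    have h3 := h1.mul h2
    have e : recDx V (s, Φ (s, y)) * recDx Φ (s, y) * Real.exp (-I s) +
        recDx Φ (s, y) * (Real.exp (-I s) * (-c s)) = 0 := by
      simp only [hc]
      ring
    rw [e] at h3
    exact h3
  have hconst : w t = w t₁ :=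
    isOpen_Ioo.is_const_of_deriv_eq_zero isPreconnected_Ioo
      (fun s hs => (hwd s hs).differentiableAt.differentiableWithinAt)
      (fun s hs => (hwd s hs).deriv) ht ht₁
  have hw1 : w t₁ = 1 := by
    have e1 : I t₁ = 0 := intervalIntegral.integral_same
    have e2 : recDx Φ (t₁, y) = 1 := by
      show deriv (fun ξ => Φ (t₁, ξ)) y = 1
      have : (fun ξ => Φ (t₁, ξ)) = fun ξ => ξ := funext h0
      rw [this]
      exact (hasDerivAt_id' y).deriv
    simp only [hw, e1, e2]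
    simp
  rw [hw1] at hconst
  by_contra hneg
  push Not at hneg
  have : w t ≤ 0 := mul_nonpos_of_nonpos_of_nonneg hneg (Real.exp_pos _).le
  linarith

theorem exists_recFlow (h : t₀ < T) (hV : ContDiffOn ℝ ∞ V (recS t₀ T))
    (hV0 : ∀ t ∈ Ioo t₀ T, ∀ y : ℝ, 2 ≤ |y| → V (t, y) = 0)
    (h1 : ∀ t ∈ Ioo t₀ T, V (t, 1) = 0) (h2 : ∀ t ∈ Ioo t₀ T, V (t, -1) = 0) :
    ∃ Φ : ℝ × ℝ → ℝ, RecFlow t₀ T V Φ := by
  have ht₁ : (t₀ + T) / 2 ∈ Ioo t₀ T := ⟨by linarith, by linarith⟩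
  obtain ⟨Φ, hsm, h0, hode, huniq⟩ := rec_flow ht₁ hV hV0
  refine ⟨Φ, hsm, hode, fun t ht y => rec_flow_dpos hV hsm hode ht₁ h0 ht y, ?_, ?_⟩
  · intro t ht
    have := huniq (fun _ => 1) (fun s hs => by
      rw [h1 s hs]
      exact hasDerivAt_const s 1) t ht
    exact this.symm
  · intro t ht
    have := huniq (fun _ => -1) (fun s hs => by
      rw [h2 s hs]
      exact hasDerivAt_const s (-1)) t ht
    exact this.symm

end Claimed.Agent.R324
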