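/-
Row 324, module R, file Rec/Time: smoothness of `laOf, lbOf, lcOf` on `(t₀,T) × (-1,1)`; elementary facts on `recChi`, `recV`.

* `laOf_contDiffOn` etc.:  `Real.log` of a positive smooth function (`ContDiffOn.log`, needs `≠ 0`);  on `(t₀,T) × (-1,1)`:  `1-y² > 0`, `A + (1-y²)B > 0` (`hM.posE`), `A > 0`, `C > 0`;  `ContDiffOn.div`;
  `hM.smA.mono` (the set is a subset of the strip).
* `recChi`:  `Real.smoothTransition.contDiff`, `Real.smoothTransition.one_of_one_le`, `Real.smoothTransition.zero_of_nonpos`;   `|y| ≤ 1 ⟹ (4-y²)/3 ≥ 1`,  `|y| ≥ 2 ⟹ (4-y²)/3 ≤ 0`  (`sq_abs`, `abs_le`, nlinarith).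
* `recDx_recV`:  for `z ∈ (-1,1)` the functions `ξ ↦ recV W (t,ξ)` and `ξ ↦ -((1-ξ²) W(t,ξ))` agree near `z` (`Ioo_mem_nhds`), `Filter.EventuallyEq.deriv_eq`, `deriv.fun_neg` (`deriv.neg`).
-/
import Claimed.Agent.R324.Rec.Defs

set_option autoImplicit false

namespace Claimed.Agent.R324

open Set Filter Topology
open scoped ContDiff
open Claimed.Agent.R325 (recS recDx recDt)

variable {t₀ T : ℝ} {A B C W : ℝ × ℝ → ℝ}

theorem recTi_sub : Ioo t₀ T ×ˢ Ioo (-1 : ℝ) 1 ⊆ Ioo t₀ T ×ˢ (univ : Set ℝ) :=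
  prod_mono_right (subset_univ _)

theorem recTi_one_sub_sq : ContDiff ℝ ∞ (fun p : ℝ × ℝ => 1 - p.2 ^ 2) :=
  contDiff_const.sub (contDiff_snd.pow 2)

theorem recTi_pos {y : ℝ} (hy : y ∈ Ioo (-1 : ℝ) 1) : 0 < 1 - y ^ 2 := by
  nlinarith [hy.1, hy.2]

theorem laOf_contDiffOn (hM : RedMetric t₀ T A B C) :
    ContDiffOn ℝ ∞ (fun p : ℝ × ℝ => laOf A B p.1 p.2) (Ioo t₀ T ×ˢ Ioo (-1 : ℝ) 1) := by
  unfold laOf
  have h1 : ContDiffOn ℝ ∞ (fun p : ℝ × ℝ => A (p.1, p.2) + (1 - p.2 ^ 2) * B (p.1, p.2))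
      (Ioo t₀ T ×ˢ Ioo (-1 : ℝ) 1) :=
    (hM.smA.mono recTi_sub).add (recTi_one_sub_sq.contDiffOn.mul (hM.smB.mono recTi_sub))
  refine (h1.div recTi_one_sub_sq.contDiffOn fun p hp => (recTi_pos hp.2).ne').log fun p hp => ?_
  exact (div_pos (hM.posE p.1 hp.1 p.2 (Ioo_subset_Icc_self hp.2)) (recTi_pos hp.2)).ne'

theorem lbOf_contDiffOn (hM : RedMetric t₀ T A B C) :
    ContDiffOn ℝ ∞ (fun p : ℝ × ℝ => lbOf A p.1 p.2) (Ioo t₀ T ×ˢ Ioo (-1 : ℝ) 1) := by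
  unfold lbOf
  have h1 : ContDiffOn ℝ ∞ (fun p : ℝ × ℝ => A (p.1, p.2) * (1 - p.2 ^ 2))
      (Ioo t₀ T ×ˢ Ioo (-1 : ℝ) 1) :=
    (hM.smA.mono recTi_sub).mul recTi_one_sub_sq.contDiffOn
  refine h1.log fun p hp => ?_
  exact (mul_pos (hM.posA p.1 hp.1 p.2 (Ioo_subset_Icc_self hp.2)) (recTi_pos hp.2)).ne'

theorem lcOf_contDiffOn (hM : RedMetric t₀ T A B C) :
    ContDiffOn ℝ ∞ (fun p : ℝ × ℝ => lcOf C p.1 p.2) (Ioo t₀ T ×ˢ Ioo (-1 : ℝ) 1) := by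
  unfold lcOf
  have h1 : ContDiffOn ℝ ∞ (fun p : ℝ × ℝ => C (p.1, p.2)) (Ioo t₀ T ×ˢ Ioo (-1 : ℝ) 1) :=
    hM.smC.mono recTi_sub
  refine h1.log fun p hp => ?_
  exact (hM.posC p.1 hp.1 p.2 (Ioo_subset_Icc_self hp.2)).ne'

theorem recChi_contDiff : ContDiff ℝ ∞ recChi := by
  unfold recChi
  exact Real.smoothTransition.contDiff.comp
    ((contDiff_const.sub (contDiff_id.pow 2)).div_const 3)

theorem recChi_one {y : ℝ} (hy : y ∈ Icc (-1 : ℝ) 1) : recChi y = 1 := by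
  unfold recChi
  apply Real.smoothTransition.one_of_one_le
  have : y ^ 2 ≤ 1 := by nlinarith [hy.1, hy.2]
  linarith

theorem recChi_zero {y : ℝ} (hy : 2 ≤ |y|) : recChi y = 0 := by
  unfold recChi
  apply Real.smoothTransition.zero_of_nonpos
  have : 4 ≤ y ^ 2 := by
    rw [← sq_abs]
    nlinarith [abs_nonneg y]
  linarith

theorem recV_contDiffOn (hW : ContDiffOn ℝ ∞ W (recS t₀ T)) :
    ContDiffOn ℝ ∞ (recV W) (recS t₀ T) := by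
  unfold recV
  exact ((recChi_contDiff.comp contDiff_snd).contDiffOn.mul
    (recTi_one_sub_sq.contDiffOn.mul hW)).neg

theorem recV_zero (W : ℝ × ℝ → ℝ) (t : ℝ) {y : ℝ} (hy : 2 ≤ |y|) : recV W (t, y) = 0 := by
  simp [recV, recChi_zero hy]

theorem recV_one (W : ℝ × ℝ → ℝ) (t : ℝ) : recV W (t, 1) = 0 := by
  simp [recV]

theorem recV_neg_one (W : ℝ × ℝ → ℝ) (t : ℝ) : recV W (t, -1) = 0 := by
  simp [recV]

theorem recV_eq (W : ℝ × ℝ → ℝ) (t : ℝ) {z : ℝ} (hz : z ∈ Icc (-1 : ℝ) 1) :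
    recV W (t, z) = -((1 - z ^ 2) * W (t, z)) := by
  simp [recV, recChi_one hz]

theorem recDx_recV (W : ℝ × ℝ → ℝ) (t : ℝ) {z : ℝ} (hz : z ∈ Ioo (-1 : ℝ) 1) :
    recDx (recV W) (t, z) = -deriv (fun ξ => (1 - ξ ^ 2) * W (t, ξ)) z := by
  unfold recDx
  have h1 : (fun ξ => recV W (t, ξ)) =ᶠ[𝓝 z]
      fun ξ => -((1 - ξ ^ 2) * W (t, ξ)) := by
    filter_upwards [Ioo_mem_nhds hz.1 hz.2] with ξ hξ
    exact recV_eq W t (Ioo_subset_Icc_self hξ)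
  show deriv (fun ξ => recV W (t, ξ)) z = _
  rw [h1.deriv_eq]
  exact deriv.fun_neg

end Claimed.Agent.R324
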