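/-
Row 324, module R, file Rec/Main: assembly of `reconstruct`.
-/
import Claimed.Agent.R324.Rec.FlowD
import Claimed.Agent.R324.Rec.Coef
import Claimed.Agent.R324.Rec.Cov
import Claimed.Agent.R324.Rec.Time

set_option autoImplicit false

namespace Claimed.Agent.R324

open Set Filter Topology
open scoped ContDiff
open Claimed.Agent.R325 (recS recDx recDt)

theorem rec_slice_at {t₀ T : ℝ} {f : ℝ × ℝ → ℝ}
    (hf : ContDiffOn ℝ ∞ f (Ioo t₀ T ×ˢ Ioo (-1 : ℝ) 1)) {t : ℝ} (ht : t ∈ Ioo t₀ T) {z : ℝ}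
    (hz : z ∈ Ioo (-1 : ℝ) 1) : ContDiffAt ℝ ∞ (fun ξ => f (t, ξ)) z := by
  have hU : IsOpen (Ioo t₀ T ×ˢ Ioo (-1 : ℝ) 1) := isOpen_Ioo.prod isOpen_Ioo
  have h1 : ContDiffAt ℝ ∞ f (t, z) := hf.contDiffAt (hU.mem_nhds ⟨ht, hz⟩)
  exact h1.comp z (contDiffAt_const.prodMk contDiffAt_id)

theorem reconstruct_main (q : ℕ) (t₀ T : ℝ) (A B C W : ℝ × ℝ → ℝ)
    (h : RedGF q t₀ T A B C W) (hR : ScalBdd q t₀ T A B C) (hK : CurvBlow t₀ T A B C) :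
    ∃ A' B' C' : ℝ × ℝ → ℝ, RedRF q t₀ T A' B' C' ∧ ScalBdd q t₀ T A' B' C' ∧
      CurvBlow t₀ T A' B' C' := by
  have hM : RedMetric t₀ T A B C := h.toRedMetric
  have hV : ContDiffOn ℝ ∞ (recV W) (recS t₀ T) := recV_contDiffOn h.smW
  obtain ⟨Φ, hΦ⟩ := exists_recFlow h.lt hV (fun t _ y hy => recV_zero W t hy)
    (fun t _ => recV_one W t) (fun t _ => recV_neg_one W t)
  obtain ⟨A', B', C', hM', hlog⟩ := rec_coef hM hΦ
  have hU : IsOpen (Ioo t₀ T ×ˢ Ioo (-1 : ℝ) 1) := isOpen_Ioo.prod isOpen_Ioo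
  have hcov : ∀ t ∈ Ioo t₀ T, ∀ y ∈ Ioo (-1 : ℝ) 1,
      RecCov (laOf A B t) (lbOf A t) (lcOf C t) (laOf A' B' t) (lbOf A' t) (lcOf C' t)
        (fun ξ => Φ (t, ξ)) y := by
    intro t ht y hy
    have hz := hΦ.mem_Ioo ht hy
    refine ⟨R325.rec_slice_x hΦ.sm ht, fun z => hΦ.dpos t ht z,
      rec_slice_at (laOf_contDiffOn hM) ht hz, rec_slice_at (lbOf_contDiffOn hM) ht hz,
      rec_slice_at (lcOf_contDiffOn hM) ht hz, ?_, ?_, ?_⟩
    · filter_upwards [Ioo_mem_nhds hy.1 hy.2] with ξ hξ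
      exact (hlog t ht ξ hξ).1
    · filter_upwards [Ioo_mem_nhds hy.1 hy.2] with ξ hξ
      exact (hlog t ht ξ hξ).2.1
    · filter_upwards [Ioo_mem_nhds hy.1 hy.2] with ξ hξ
      exact (hlog t ht ξ hξ).2.2
  refine ⟨A', B', C', ⟨hM', h.lt, ?_, ?_, ?_⟩, ?_, ?_⟩
  · -- flowA
    intro t ht y hy
    have hz := hΦ.mem_Ioo ht hy
    rw [(hcov t ht y hy).rfA_eq]
    have e : (fun s => laOf A' B' s y) =ᶠ[𝓝 t]
        fun s => laOf A B s (Φ (s, y)) + 2 * Real.log (recDx Φ (s, y)) := by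
      filter_upwards [Ioo_mem_nhds ht.1 ht.2] with s hs
      exact (hlog s hs y hy).1
    rw [e.deriv_eq]
    have hd1 : HasDerivAt (fun s => laOf A B s (Φ (s, y)))
        (deriv (fun s => laOf A B s (Φ (t, y))) t
          + deriv (laOf A B t) (Φ (t, y)) * recV W (t, Φ (t, y))) t :=
      rec_curve_hasDerivAt hU (laOf_contDiffOn hM) (hΦ.ode t ht y) ⟨ht, hz⟩
    have hP : recDx Φ (t, y) ≠ 0 := (hΦ.dpos t ht y).ne'
    have hd2 := (rec_flow_dtdx hV hΦ.sm hΦ.ode ht y).log hP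
    have hd : HasDerivAt (fun s => laOf A B s (Φ (s, y)) + 2 * Real.log (recDx Φ (s, y)))
        (deriv (fun s => laOf A B s (Φ (t, y))) t
          + deriv (laOf A B t) (Φ (t, y)) * recV W (t, Φ (t, y))
          + 2 * (recDx (recV W) (t, Φ (t, y)) * recDx Φ (t, y) / recDx Φ (t, y))) t :=
      hd1.add (hd2.const_mul 2)
    rw [hd.deriv, h.flowA t ht _ hz, recV_eq W t ⟨hz.1.le, hz.2.le⟩, recDx_recV W t hz,
      mul_div_assoc, div_self hP]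
    ring
  · -- flowB
    intro t ht y hy
    have hz := hΦ.mem_Ioo ht hy
    rw [(hcov t ht y hy).rfB_eq]
    have e : (fun s => lbOf A' s y) =ᶠ[𝓝 t] fun s => lbOf A s (Φ (s, y)) := by
      filter_upwards [Ioo_mem_nhds ht.1 ht.2] with s hs
      exact (hlog s hs y hy).2.1
    rw [e.deriv_eq]
    have hd1 : HasDerivAt (fun s => lbOf A s (Φ (s, y)))
        (deriv (fun s => lbOf A s (Φ (t, y))) t
          + deriv (lbOf A t) (Φ (t, y)) * recV W (t, Φ (t, y))) t :=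
      rec_curve_hasDerivAt hU (lbOf_contDiffOn hM) (hΦ.ode t ht y) ⟨ht, hz⟩
    rw [hd1.deriv, h.flowB t ht _ hz, recV_eq W t ⟨hz.1.le, hz.2.le⟩]
    ring
  · -- flowC
    intro t ht y hy
    have hz := hΦ.mem_Ioo ht hy
    rw [(hcov t ht y hy).rfC_eq]
    have e : (fun s => lcOf C' s y) =ᶠ[𝓝 t] fun s => lcOf C s (Φ (s, y)) := by
      filter_upwards [Ioo_mem_nhds ht.1 ht.2] with s hs
      exact (hlog s hs y hy).2.2
    rw [e.deriv_eq]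
    have hd1 : HasDerivAt (fun s => lcOf C s (Φ (s, y)))
        (deriv (fun s => lcOf C s (Φ (t, y))) t
          + deriv (lcOf C t) (Φ (t, y)) * recV W (t, Φ (t, y))) t :=
      rec_curve_hasDerivAt hU (lcOf_contDiffOn hM) (hΦ.ode t ht y) ⟨ht, hz⟩
    rw [hd1.deriv, h.flowC t ht _ hz, recV_eq W t ⟨hz.1.le, hz.2.le⟩]
    ring
  · -- ScalBdd
    obtain ⟨C₀, hC₀⟩ := hR
    refine ⟨C₀, fun t ht y hy => ?_⟩
    rw [(hcov t ht y hy).scalRed_eq]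
    exact hC₀ t ht _ (hΦ.mem_Ioo ht hy)
  · -- CurvBlow
    intro K
    obtain ⟨δ, hδ, hb⟩ := hK K
    refine ⟨δ, hδ, fun t ht ht0 => ?_⟩
    obtain ⟨z, hz, hKz⟩ := hb t ht ht0
    have ht' : t ∈ Ioo t₀ T := ⟨ht0, ht.2⟩
    obtain ⟨y, hy, rfl⟩ := hΦ.surj ht' hz
    refine ⟨y, hy, ?_⟩
    rw [(hcov t ht' y hy).kPsi_eq]
    exact hKz

end Claimed.Agent.R324
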