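/-
Row 324, module R, file Rec/FlowE (R2): monotonicity; `Φ(t,·)` is a bijection of (-1,1).

`ξ ↦ Φ(t,ξ)` is differentiable with derivative `recDx Φ (t,ξ) > 0` (`R325.rec_hasDerivAt_x h.sm ht ξ`, `h.dpos`), hence strictly monotone (`strictMono_of_deriv_pos`; note `recDx Φ (t,ξ) = deriv (fun ξ => Φ (t,ξ)) ξ` by `rfl`).
With `Φ(t,±1) = ±1` all the inequalities follow.  Surjectivity: `intermediate_value_Icc` on `[-1,1]` (continuity: `R325.rec_continuous_x`), the preimage is not `±1`.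
-/
import Claimed.Agent.R324.Rec.Defs

set_option autoImplicit false

namespace Claimed.Agent.R324

open Set Filter Topology
open scoped ContDiff
open Claimed.Agent.R325 (recS recDx recDt)

variable {t₀ T : ℝ} {V Φ : ℝ × ℝ → ℝ}

theorem RecFlow.strictMono (h : RecFlow t₀ T V Φ) {t : ℝ} (ht : t ∈ Ioo t₀ T) :
    StrictMono (fun ξ => Φ (t, ξ)) :=
  strictMono_of_deriv_pos fun ξ => h.dpos t ht ξ

theorem RecFlow.mem_Ioo (h : RecFlow t₀ T V Φ) {t : ℝ} (ht : t ∈ Ioo t₀ T) {y : ℝ}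
    (hy : y ∈ Ioo (-1 : ℝ) 1) : Φ (t, y) ∈ Ioo (-1 : ℝ) 1 := by
  have h1 := h.strictMono ht hy.1
  have h2 := h.strictMono ht hy.2
  simp only [h.one t ht, h.neg_one t ht] at h1 h2
  exact ⟨h1, h2⟩

theorem RecFlow.mem_Icc (h : RecFlow t₀ T V Φ) {t : ℝ} (ht : t ∈ Ioo t₀ T) {y : ℝ}
    (hy : y ∈ Icc (-1 : ℝ) 1) : Φ (t, y) ∈ Icc (-1 : ℝ) 1 := by
  have h1 := (h.strictMono ht).monotone hy.1
  have h2 := (h.strictMono ht).monotone hy.2
  simp only [h.one t ht, h.neg_one t ht] at h1 h2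
  exact ⟨h1, h2⟩

theorem RecFlow.one_lt (h : RecFlow t₀ T V Φ) {t : ℝ} (ht : t ∈ Ioo t₀ T) {y : ℝ}
    (hy : 1 < y) : 1 < Φ (t, y) := by
  have h1 := h.strictMono ht hy
  simp only [h.one t ht] at h1
  exact h1

theorem RecFlow.lt_neg_one (h : RecFlow t₀ T V Φ) {t : ℝ} (ht : t ∈ Ioo t₀ T) {y : ℝ}
    (hy : y < -1) : Φ (t, y) < -1 := by
  have h1 := h.strictMono ht hy
  simp only [h.neg_one t ht] at h1
  exact h1

theorem RecFlow.surj (h : RecFlow t₀ T V Φ) {t : ℝ} (ht : t ∈ Ioo t₀ T) {z : ℝ}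
    (hz : z ∈ Ioo (-1 : ℝ) 1) : ∃ y ∈ Ioo (-1 : ℝ) 1, Φ (t, y) = z := by
  have hc : ContinuousOn (fun ξ => Φ (t, ξ)) (Icc (-1 : ℝ) 1) :=
    (R325.rec_continuous_x h.sm ht).continuousOn
  have hiv := intermediate_value_Icc (by norm_num : (-1 : ℝ) ≤ 1) hc
  simp only [h.one t ht, h.neg_one t ht] at hiv
  obtain ⟨y, hy, hyz⟩ := hiv ⟨hz.1.le, hz.2.le⟩
  simp only at hyz
  refine ⟨y, ⟨lt_of_le_of_ne hy.1 ?_, lt_of_le_of_ne hy.2 ?_⟩, hyz⟩
  · rintro rfl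
    rw [h.neg_one t ht] at hyz
    exact hz.1.ne hyz
  · rintro rfl
    rw [h.one t ht] at hyz
    exact hz.2.ne hyz.symm

end Claimed.Agent.R324
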