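/-
Row 324, module R, file Rec/CoefQ (R3, part 1): the quotient `Q = (1-Φ²)/(1-y²)`.

`f(t,y) := 1 - Φ(t,y)²` is smooth on the strip and vanishes at `y = ±1` (`h.one`, `h.neg_one`); `rec_hadamard2` gives a smooth `Q` with `1 - Φ² = (1-y²) Q`.
Values at `y = ±1`: differentiate the identity in `y` at `y = 1`:  `-2 Φ Φ_y = -2 y Q + (1-y²) Q_y`, i.e. `-2 Φ_y(t,1) = -2 Q(t,1)`  (`HasDerivAt.unique`; both sides are the derivative of the same function of `y`);  same at `y = -1`.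
Positivity:  `|y|<1`: `1-Φ²>0` (`RecFlow.mem_Ioo`), `1-y²>0`;   `|y|>1`: both negative (`RecFlow.one_lt`, `RecFlow.lt_neg_one`);   `y=±1`: `Q = Φ_y > 0` (`h.dpos`).
-/
import Claimed.Agent.R324.Rec.Basic
import Claimed.Agent.R324.Rec.FlowE

set_option autoImplicit false

namespace Claimed.Agent.R324

open Set Filter Topology
open scoped ContDiff
open Claimed.Agent.R325 (recS recDx recDt)

variable {t₀ T : ℝ} {V Φ : ℝ × ℝ → ℝ}

theorem rec_Q (h : RecFlow t₀ T V Φ) :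
    ∃ Q : ℝ × ℝ → ℝ, ContDiffOn ℝ ∞ Q (recS t₀ T) ∧
      (∀ t ∈ Ioo t₀ T, ∀ y : ℝ, 1 - Φ (t, y) ^ 2 = (1 - y ^ 2) * Q (t, y)) ∧
      (∀ t ∈ Ioo t₀ T, ∀ y : ℝ, 0 < Q (t, y)) ∧
      (∀ t ∈ Ioo t₀ T, Q (t, 1) = recDx Φ (t, 1)) ∧
      (∀ t ∈ Ioo t₀ T, Q (t, -1) = recDx Φ (t, -1)) := by
  have hf : ContDiffOn ℝ ∞ (fun p : ℝ × ℝ => 1 - Φ p ^ 2) (recS t₀ T) :=
    contDiffOn_const.sub (h.sm.pow 2)
  obtain ⟨Q, hQ, hid⟩ := rec_hadamard2 hf
    (fun t ht => by simp only [h.one t ht]; norm_num)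
    (fun t ht => by simp only [h.neg_one t ht]; norm_num)
  have hbd : ∀ t ∈ Ioo t₀ T, ∀ y0 : ℝ, y0 ^ 2 = 1 → Φ (t, y0) = y0 →
      Q (t, y0) = recDx Φ (t, y0) := by
    intro t ht y0 hy0 hΦ
    have d1 : HasDerivAt (fun ξ => 1 - Φ (t, ξ) ^ 2) (-(2 * Φ (t, y0) * recDx Φ (t, y0))) y0 := by
      have h1 := ((Claimed.Agent.R325.rec_hasDerivAt_x h.sm ht y0).fun_pow 2).const_sub 1
      have h2 : HasDerivAt (fun ξ => 1 - Φ (t, ξ) ^ 2)
          (-(((2 : ℕ) : ℝ) * Φ (t, y0) ^ (2 - 1) * recDx Φ (t, y0))) y0 := h1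
      simpa using h2
    have d2 : HasDerivAt (fun ξ => (1 - ξ ^ 2) * Q (t, ξ))
        (-(2 * y0) * Q (t, y0) + (1 - y0 ^ 2) * recDx Q (t, y0)) y0 := by
      have e1 : HasDerivAt (fun ξ : ℝ => 1 - ξ ^ 2) (-(2 * y0)) y0 := by
        have h1 := ((hasDerivAt_id' y0).fun_pow 2).const_sub 1
        have h2 : HasDerivAt (fun ξ : ℝ => 1 - ξ ^ 2) (-(((2 : ℕ) : ℝ) * y0 ^ (2 - 1) * 1)) y0 := h1
        simpa using h2
      exact e1.mul (Claimed.Agent.R325.rec_hasDerivAt_x hQ ht y0)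
    have e : (fun ξ => 1 - Φ (t, ξ) ^ 2) = fun ξ => (1 - ξ ^ 2) * Q (t, ξ) :=
      funext fun ξ => hid t ht ξ
    rw [e] at d1
    have h3 := d1.unique d2
    rw [hΦ, hy0] at h3
    have hy : y0 ≠ 0 := by
      rintro rfl
      norm_num at hy0
    have h4 : y0 * (Q (t, y0) - recDx Φ (t, y0)) = 0 := by linarith
    rcases mul_eq_zero.1 h4 with h0 | h0
    · exact absurd h0 hy
    · linarith
  have hb1 : ∀ t ∈ Ioo t₀ T, Q (t, 1) = recDx Φ (t, 1) := fun t ht =>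
    hbd t ht 1 (by norm_num) (h.one t ht)
  have hb2 : ∀ t ∈ Ioo t₀ T, Q (t, -1) = recDx Φ (t, -1) := fun t ht =>
    hbd t ht (-1) (by norm_num) (h.neg_one t ht)
  refine ⟨Q, hQ, hid, ?_, hb1, hb2⟩
  intro t ht y
  have hy := hid t ht y
  rcases lt_trichotomy y (-1) with hlt | heq | hgt
  · have h1 := h.lt_neg_one ht hlt
    have h2 : 1 - y ^ 2 < 0 := by nlinarith
    have h3 : 1 - Φ (t, y) ^ 2 < 0 := by nlinarith
    rw [hy] at h3
    exact pos_of_mul_neg_right h3 h2.le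
  · rw [heq, hb2 t ht]
    exact h.dpos t ht _
  · rcases lt_trichotomy y 1 with hlt1 | heq1 | hgt1
    · have h1 := h.mem_Ioo ht (y := y) ⟨hgt, hlt1⟩
      have h2 : 0 < 1 - y ^ 2 := by nlinarith
      have h3 : 0 < 1 - Φ (t, y) ^ 2 := by nlinarith [h1.1, h1.2]
      rw [hy] at h3
      exact (pos_iff_pos_of_mul_pos h3).1 h2
    · rw [heq1, hb1 t ht]
      exact h.dpos t ht _
    · have h1 := h.one_lt ht hgt1
      have h2 : 1 - y ^ 2 < 0 := by nlinarith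
      have h3 : 1 - Φ (t, y) ^ 2 < 0 := by nlinarith
      rw [hy] at h3
      exact pos_of_mul_neg_right h3 h2.le

end Claimed.Agent.R324
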