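/-
Row 324, module R, file Rec/FlowA (R1, part A1): time reparametrisation.

* `rec_theta`:  L = T - t₀ > 0,   θ(τ) = t₀ + L (1 + τ/√(1+τ²))/2,    κ(t) = u/√(1-u²),  u = 2(t-t₀)/L - 1 ∈ (-1,1).
   θ smooth (`ContDiff.sqrt`/`Real.contDiffAt_sqrt`, 1+τ² ≠ 0; `ContDiff.div`),  |τ| < √(1+τ²)  ⟹  θ(τ) ∈ (t₀,T);
   κ smooth on (t₀,T) (1-u² > 0);   1+κ² = 1/(1-u²),  κ/√(1+κ²) = u  ⟹  θ(κ(t)) = t.
   (Any other pair θ, κ with these properties is fine.)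
-/
import Claimed.Agent.R324.Rec.Defs

set_option autoImplicit false

namespace Claimed.Agent.R324

open Set Filter Topology
open scoped ContDiff

theorem rec_theta {t₀ T : ℝ} (h : t₀ < T) :
    ∃ θ κ : ℝ → ℝ, ContDiff ℝ ∞ θ ∧ (∀ τ, θ τ ∈ Ioo t₀ T) ∧ ContDiffOn ℝ ∞ κ (Ioo t₀ T) ∧
      ∀ t ∈ Ioo t₀ T, θ (κ t) = t := by
  have hL : 0 < T - t₀ := by linarith
  have hu : ∀ t ∈ Ioo t₀ T, 0 < 1 - (2 * (t - t₀) / (T - t₀) - 1) ^ 2 := by
    intro t ht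
    have h1 : 0 < (t - t₀) / (T - t₀) := div_pos (by linarith [ht.1]) hL
    have h2 : (t - t₀) / (T - t₀) < 1 := (div_lt_one hL).2 (by linarith [ht.2])
    have e : 2 * (t - t₀) / (T - t₀) = 2 * ((t - t₀) / (T - t₀)) := by ring
    rw [e]
    nlinarith
  refine ⟨fun τ => t₀ + (T - t₀) * (1 + τ / Real.sqrt (1 + τ ^ 2)) / 2,
    fun t => (2 * (t - t₀) / (T - t₀) - 1) /
      Real.sqrt (1 - (2 * (t - t₀) / (T - t₀) - 1) ^ 2), ?_, ?_, ?_, ?_⟩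
  · have hpos : ∀ τ : ℝ, 1 + τ ^ 2 ≠ 0 := fun τ => by positivity
    have hs : ContDiff ℝ ∞ (fun τ : ℝ => Real.sqrt (1 + τ ^ 2)) :=
      ContDiff.sqrt (by fun_prop) hpos
    have hd : ContDiff ℝ ∞ (fun τ : ℝ => τ / Real.sqrt (1 + τ ^ 2)) :=
      contDiff_id.div hs (fun τ => (Real.sqrt_pos.2 (by positivity)).ne')
    exact contDiff_const.add ((contDiff_const.mul (contDiff_const.add hd)).div_const 2)
  · intro τ
    have hs : 0 < Real.sqrt (1 + τ ^ 2) := Real.sqrt_pos.2 (by positivity)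
    have habs : |τ| < Real.sqrt (1 + τ ^ 2) := (Real.lt_sqrt (abs_nonneg τ)).2 (by rw [sq_abs]; linarith)
    have h1 : τ / Real.sqrt (1 + τ ^ 2) < 1 := (div_lt_one hs).2 (lt_of_abs_lt habs)
    have h2 : -1 < τ / Real.sqrt (1 + τ ^ 2) := by
      rw [lt_div_iff₀ hs]
      linarith [neg_lt_of_abs_lt habs]
    constructor <;> nlinarith
  · have hlin : ContDiffOn ℝ ∞ (fun t : ℝ => 2 * (t - t₀) / (T - t₀) - 1) (Ioo t₀ T) := by
      fun_prop
    have hq : ContDiffOn ℝ ∞ (fun t : ℝ => 1 - (2 * (t - t₀) / (T - t₀) - 1) ^ 2) (Ioo t₀ T) := by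
      fun_prop
    have hs : ContDiffOn ℝ ∞
        (fun t : ℝ => Real.sqrt (1 - (2 * (t - t₀) / (T - t₀) - 1) ^ 2)) (Ioo t₀ T) :=
      hq.sqrt (fun t ht => (hu t ht).ne')
    exact hlin.div hs (fun t ht => (Real.sqrt_pos.2 (hu t ht)).ne')
  · intro t ht
    have hw := hu t ht
    have hLne : T - t₀ ≠ 0 := hL.ne'
    have hut : t = t₀ + (T - t₀) * (1 + (2 * (t - t₀) / (T - t₀) - 1)) / 2 := by
      field_simp
      ring
    simp only
    generalize 2 * (t - t₀) / (T - t₀) - 1 = u at hw hut ⊢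
    have hwpos : 0 < Real.sqrt (1 - u ^ 2) := Real.sqrt_pos.2 hw
    have hwsq : Real.sqrt (1 - u ^ 2) ^ 2 = 1 - u ^ 2 := Real.sq_sqrt hw.le
    generalize Real.sqrt (1 - u ^ 2) = w at hwpos hwsq ⊢
    have e1 : 1 + (u / w) ^ 2 = (1 / w) ^ 2 := by
      field_simp
      linarith
    have e2 : Real.sqrt (1 + (u / w) ^ 2) = 1 / w := by
      rw [e1, Real.sqrt_sq (by positivity)]
    rw [e2]
    have e3 : u / w / (1 / w) = u := by
      field_simp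
    rw [e3]
    exact hut.symm

end Claimed.Agent.R324
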